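import Vale.Agent.P309.Final

/-!
P309, Q1: under memory O(d^2) the horizon is at least a constant times d log(1/ε).
-/

namespace Vale.Agent.Results.P309.MemorySampleLowerBound

open Vale.Agent.P309
open scoped ENNReal

theorem result : ∃ c c' ε₀ : ℝ, 0 < c ∧ 0 < c' ∧ 0 < ε₀ ∧ ∃ d₀ : ℕ, ∀ d ≥ d₀, ∀ ε : ℝ, 0 < ε →
    ε ≤ ε₀ → ∀ M : ℕ, (M : ℝ) ≤ c * (d : ℝ) ^ 2 → ∀ (T : ℕ) (L : Learner d M),
      (2 / 3 : ℝ≥0∞) ≤ successProb L T ε → c' * d * Real.log (1 / ε) ≤ T :=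
  memory_sample_lower_bound

end Vale.Agent.Results.P309.MemorySampleLowerBound
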